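import Vale.Agent.Lib.P062.Win.Game

/-!
# A certificate checker for Maker strategies in the Snaky game

Cells of the window `[-13, 13]^2` are coded by natural numbers `c < 729`
(`c = (x + 13) + 27 * (y + 13)`).  A set of cells is coded by a natural number `X` whose bit
`c + 64` says whether the cell `c` belongs to the set; the lowest `64` bits of `X` carry no
information (the checker fills them with a checksum, which only serves to make kernel evaluation
fast).  A certificate is a stream of records (58-bit slots packed into numerals) describing a
strategy tree of Maker; the checker computes relevance zones.  Everything is written with the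
kernel-accelerated `Nat` primitives, so that `decide +kernel` evaluates it fast.
-/

namespace Vale.Agent.Lib.P062.Win

open Vale.Agent.Lib.P062

/-- The cell coded by `c`. -/
def cellOf (c : ℕ) : ℤ × ℤ := (((c % 27 : ℕ) : ℤ) - 13, ((c / 27 : ℕ) : ℤ) - 13)

/-- The cell `c` belongs to the set coded by `X`. -/
def tb (X c : ℕ) : Bool := Nat.beq (Nat.land 1 (Nat.shiftRight X (Nat.add c 64))) 1

/-- The set of cells coded by `X`. -/
def setOf (X : ℕ) : Finset (ℤ × ℤ) :=
  ((Finset.range 729).filter (fun c => tb X c = true)).image cellOf

/-- Replace the lowest 64 bits of a set code by a checksum of the rest. -/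
def nm (y : ℕ) : ℕ :=
  Nat.add (Nat.mul (Nat.div y 18446744073709551616) 18446744073709551616)
    (Nat.mod (Nat.div y 18446744073709551616) 18446744073709551557)

/-- Add the cell `c` to the set coded by `X`. -/
def ins (X c : ℕ) : ℕ := nm (Nat.lor X (Nat.pow 2 (Nat.add c 64)))

/-- Offsets (in cell codes, from the anchor) of the six cells of the copy of Snaky in
orientation `o`. -/
def offs (o : ℕ) : List ℕ :=
  match o with
  | 0 => [0, 1, 2, 3, 30, 31]
  | 1 => [4, 3, 2, 1, 28, 27]
  | 2 => [27, 28, 29, 30, 3, 4]
  | 3 => [31, 30, 29, 28, 1, 0]
  | 4 => [0, 27, 54, 81, 82, 109]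
  | 5 => [1, 28, 55, 82, 81, 108]
  | 6 => [108, 81, 54, 27, 28, 1]
  | _ => [109, 82, 55, 28, 27, 0]

/-- Bit mask of the offsets `offs o`. -/
def shape (o : ℕ) : ℕ :=
  match o with
  | 0 => 3221225487
  | 1 => 402653214
  | 2 => 2013265944
  | 3 => 4026531843
  | 4 => 649037114570408389268485733089281
  | 5 => 324518560911981680499728356212738
  | 6 => 324518556076278384026813282123778
  | _ => 649037112152556768053626161594369

/-- The copy with orientation `o` and anchor code `a` lies inside the window. -/
def validCopy (o a : ℕ) : Bool :=
  match Nat.ble o 3 with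
  | true => Nat.ble (Nat.mod a 27) 22 && Nat.ble a 701
  | false => Nat.ble o 7 && Nat.ble (Nat.mod a 27) 25 && Nat.ble a 620

/-- All six cells of the copy with orientation `o` and anchor `a` belong to the set `M` or equal the cell `t`. -/
def thr (M o a t : ℕ) : Bool :=
  validCopy o a &&
    Nat.beq (Nat.land (Nat.shiftLeft (shape o) (Nat.add a 64)) (Nat.lor M (Nat.pow 2 (Nat.add t 64))))
      (Nat.shiftLeft (shape o) (Nat.add a 64))

/-- The cell code `c` is in the window and belongs neither to `M` nor to `B`. -/
def freeCell (M B c : ℕ) : Bool :=
  Nat.ble c 728 && Nat.beq (Nat.land 1 (Nat.shiftRight (Nat.lor M B) (Nat.add c 64))) 0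

/-- The packed threat `v = t + 1024 * o + 8192 * a`: the cell `t` is unclaimed and the copy
with orientation `o` and anchor `a` lies in `M` together with `t`. -/
def thrAt (M B v : ℕ) : Bool :=
  freeCell M B (Nat.mod v 1024) && thr M (Nat.mod (Nat.div v 1024) 8) (Nat.div v 8192) (Nat.mod v 1024)

/-- Two packed threats (`w = v1 + 2^23 * v2`) at different cells. -/
def dbl (M B w : ℕ) : Bool :=
  thrAt M B (Nat.mod w 8388608) && thrAt M B (Nat.div w 8388608) &&
    !Nat.beq (Nat.mod w 1024) (Nat.mod (Nat.div w 8388608) 1024)

/-- Result of a checker run: success flag, relevance zone, number of Maker moves needed, and the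
remaining stream. -/
structure Res where
  ok : Bool
  zone : ℕ
  depth : ℕ
  cur : ℕ
  rest : List ℕ
  rest2 : List (List ℕ)

/-- Failure. -/
def Res.fail : Res := ⟨false, 0, 0, 0, [], []⟩

/-- Evaluate `x` before continuing (semantically `k x`). -/
def frc (x : ℕ) (k : ℕ → Res) : Res :=
  match x with
  | 0 => k 0
  | Nat.succ n => k (Nat.succ n)

/-- Read the next 58-bit record of the stream. -/
def nextRec (cur : ℕ) (rest : List ℕ) (rest2 : List (List ℕ))
    (k : ℕ → ℕ → List ℕ → List (List ℕ) → Res) : Res :=
  match Nat.ble cur 1 with
  | false =>
    frc (Nat.div cur 288230376151711744) fun cur1 =>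
      frc (Nat.mod cur 288230376151711744) fun c => k c cur1 rest rest2
  | true =>
    match rest with
    | x :: rest1 =>
      frc (Nat.div x 288230376151711744) fun cur1 =>
        frc (Nat.mod x 288230376151711744) fun c => k c cur1 rest1 rest2
    | [] =>
      match rest2 with
      | (x :: rest1) :: rest3 =>
        frc (Nat.div x 288230376151711744) fun cur1 =>
          frc (Nat.mod x 288230376151711744) fun c => k c cur1 rest1 rest3
      | _ => Res.fail

/-- The certificate checker.  `go f false M B _ _ _ cur rest rest2` reads one strategy node for the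
position with Maker's cells `M`, Breaker's cells `B`, Maker to move.
`go f true M B U tot d cur rest rest2` reads the remaining alternatives (Breaker replies with their
subtrees) of a branching node, where `M` already contains Maker's move, `U` is the set of replies
not yet covered, `tot` the zone and `d` the depth collected so far.  `f` is fuel. -/
def go : ℕ → Bool → ℕ → ℕ → ℕ → ℕ → ℕ → ℕ → List ℕ → List (List ℕ) → Res
  | 0, _, _, _, _, _, _, _, _, _ => Res.fail
  | f + 1, false, M, B, _, _, _, cur0, rest0, rest20 =>
      nextRec cur0 rest0 rest20 fun c cur rest rest2 =>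
      frc (Nat.div (Nat.mod c 4096) 4) fun m =>
      match freeCell M B m with
      | false => Res.fail
      | true =>
        frc (ins M m) fun M1 =>
        match Nat.mod c 4 with
        | 0 =>
          frc (Nat.div c 4096) fun w =>
          match dbl M1 B w with
          | true =>
            frc (ins (ins (ins 0 m) (Nat.mod w 1024)) (Nat.mod (Nat.div w 8388608) 1024)) fun z =>
              ⟨true, z, 2, cur, rest, rest2⟩
          | false => Res.fail
        | 1 =>
          frc (Nat.div c 4096) fun w =>
          match thrAt M1 B w with
          | true =>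
            frc (Nat.mod w 1024) fun t =>
            frc (ins B t) fun B1 =>
            match go f false M1 B1 0 0 0 cur rest rest2 with
            | ⟨true, z, d, cur1, rest1, rest21⟩ =>
              frc (ins (ins z m) t) fun z1 =>
                frc (Nat.succ d) fun d1 => ⟨true, z1, d1, cur1, rest1, rest21⟩
            | ⟨false, _, _, _, _, _⟩ => Res.fail
          | false => Res.fail
        | 2 =>
          match go f false M1 B 0 0 0 cur rest rest2 with
          | ⟨true, z0, d0, cur1, rest1, rest21⟩ =>
            frc (nm (Nat.xor z0 (Nat.land z0 (Nat.lor M1 B)))) fun U0 =>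
            match go f true M1 B U0 z0 d0 cur1 rest1 rest21 with
            | ⟨true, z, d, cur2, rest2a, rest22⟩ =>
              frc (ins z m) fun z1 =>
                frc (Nat.succ d) fun d1 => ⟨true, z1, d1, cur2, rest2a, rest22⟩
            | ⟨false, _, _, _, _, _⟩ => Res.fail
          | ⟨false, _, _, _, _, _⟩ => Res.fail
        | _ => Res.fail
  | f + 1, true, M, B, U, tot, d, cur0, rest0, rest20 =>
      nextRec cur0 rest0 rest20 fun c cur rest rest2 =>
      match Nat.mod c 2 with
      | 0 =>
        match Nat.ble U 18446744073709551615 with
        | true => ⟨true, tot, d, cur, rest, rest2⟩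
        | false => Res.fail
      | _ =>
        frc (Nat.div c 2) fun b =>
        match freeCell M B b with
        | true =>
          frc (ins B b) fun B1 =>
          match go f false M B1 0 0 0 cur rest rest2 with
          | ⟨true, z, d1, cur1, rest1, rest21⟩ =>
            frc (nm (Nat.land U (Nat.xor z (Nat.land z (Nat.pow 2 (Nat.add b 64)))))) fun U1 =>
            frc (nm (Nat.lor tot z)) fun tot1 =>
            frc (match Nat.ble d d1 with | true => d1 | false => d) fun d2 =>
              go f true M B U1 tot1 d2 cur1 rest1 rest21
          | ⟨false, _, _, _, _, _⟩ => Res.fail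
        | false => Res.fail

/-- The checker accepts the certificate `data` for the position `M`, `B` with Maker to move, and
reports the zone `Z` and the depth `d`. -/
def Accepts (M B Z d : ℕ) (data : List (List ℕ)) : Bool :=
  match go 100000 false M B 0 0 0 0 [] data with
  | ⟨ok, zone, depth, _, _, _⟩ => ok && Nat.beq zone Z && Nat.beq depth d

end Vale.Agent.Lib.P062.Win
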